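import Vale.Agent.P022.H138.L3.Defs
import Vale.Agent.P022.H527.L3.Mat

/-!
# P022-L3, row [HEX]: the operators `T_ℓ`, `D_a` on `V(N, M, n)` exist and commute
-/

open scoped MatrixGroups

noncomputable section

namespace Vale.Agent.P022.H648.L3

open Matrix Vale.Agent.P022.L3 Vale.Agent.P022.H527.L3

theorem mul_ap (g h : SL(2, ℤ)) (i j : Fin 2) :
    (g * h) i j = g i 0 * h 0 j + g i 1 * h 1 j := by
  rw [Matrix.SpecialLinearGroup.coe_mul, mul_apply, Fin.sum_univ_two]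

theorem inv_ap (g : SL(2, ℤ)) : g⁻¹ 0 0 = g 1 1 ∧ g⁻¹ 0 1 = -g 0 1 ∧ g⁻¹ 1 0 = -g 1 0 ∧
    g⁻¹ 1 1 = g 0 0 := by
  rw [Matrix.SpecialLinearGroup.coe_inv, adjugate_fin_two]
  simp

theorem det_ap (g : SL(2, ℤ)) : g 0 0 * g 1 1 - g 0 1 * g 1 0 = 1 := by
  have := g.det_coe
  rwa [det_fin_two] at this

/-- the group `G(N, M)` -/
def GN (N M : ℕ) : Subgroup SL(2, ℤ) where
  carrier := {γ | InG N M γ}
  one_mem' := ⟨by simp, by simp, Or.inl (by simp)⟩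
  mul_mem' := by
    rintro g h ⟨g1, g2, g3⟩ ⟨h1, h2, h3⟩
    refine ⟨?_, ?_, ?_⟩
    · rw [mul_ap]; exact dvd_add (g1.mul_right _) (h1.mul_left _)
    · rw [mul_ap]; exact dvd_add (h2.mul_left _) (g2.mul_right _)
    · rw [mul_ap]
      obtain ⟨u, hu⟩ := g1
      rcases g3 with ⟨v, hv⟩ | ⟨v, hv⟩ <;> rcases h3 with ⟨w, hw⟩ | ⟨w, hw⟩
      · exact Or.inl ⟨u * h 0 1 + v * h 1 1 + w, by
          linear_combination h 0 1 * hu + h 1 1 * hv + hw⟩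
      · exact Or.inr ⟨u * h 0 1 + v * h 1 1 + w, by
          linear_combination h 0 1 * hu + h 1 1 * hv + hw⟩
      · exact Or.inr ⟨u * h 0 1 + v * h 1 1 - w, by
          linear_combination h 0 1 * hu + h 1 1 * hv - hw⟩
      · exact Or.inl ⟨u * h 0 1 + v * h 1 1 - w, by
          linear_combination h 0 1 * hu + h 1 1 * hv - hw⟩
  inv_mem' := by
    rintro g ⟨⟨u, hu⟩, g2, g3⟩
    obtain ⟨i1, i2, i3, i4⟩ := inv_ap g
    have hd := det_ap g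
    refine ⟨?_, ?_, ?_⟩
    · rw [i3, hu]; exact (dvd_mul_right _ _).neg_right
    · rw [i2]; exact g2.neg_right
    · rw [i4]
      rcases g3 with ⟨v, hv⟩ | ⟨v, hv⟩
      · exact Or.inl ⟨-(g 0 0 * v) + g 0 1 * u, by
          linear_combination (-g 0 0) * hv + g 0 1 * hu + hd⟩
      · exact Or.inr ⟨g 0 0 * v - g 0 1 * u, by
          linear_combination (g 0 0) * hv - g 0 1 * hu - hd⟩

theorem mem_GN {N M : ℕ} {γ : SL(2, ℤ)} : γ ∈ GN N M ↔ InG N M γ := Iff.rfl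

theorem neg_one_mem (N M : ℕ) : (-1 : SL(2, ℤ)) ∈ GN N M := by
  refine ⟨?_, ?_, Or.inr ?_⟩ <;> simp [Matrix.SpecialLinearGroup.coe_neg]

/-- matrices of the class of `diag(p, q)` -/
structure AT (N M : ℕ) (p q : ℤ) (X : M2) : Prop where
  c : ((N * 2 ^ M : ℕ) : ℤ) ∣ X 1 0
  d : ((N * 2 ^ M : ℕ) : ℤ) ∣ X 1 1 - q
  a : ((N * 2 ^ M : ℕ) : ℤ) ∣ X 0 0 - p
  b : ((2 ^ M : ℕ) : ℤ) ∣ X 0 1

theorem red_dvd {N : ℕ} {X Y : M2} (e : red N X = red N Y) (i j : Fin 2) :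
    (N : ℤ) ∣ X i j - Y i j := by
  have h : ((X i j : ℤ) : ZMod N) = Y i j := congrFun (congrFun e i) j
  rw [← ZMod.intCast_zmod_eq_zero_iff_dvd, Int.cast_sub, h, sub_self]

theorem red_of_dvd {N : ℕ} {X Y : M2} (h : ∀ i j, (N : ℤ) ∣ X i j - Y i j) :
    red N X = red N Y := by
  ext i j
  show ((X i j : ℤ) : ZMod N) = Y i j
  have := (ZMod.intCast_zmod_eq_zero_iff_dvd _ N).2 (h i j)
  rwa [Int.cast_sub, sub_eq_zero] at this

theorem mem_of_cg {N M : ℕ} {p q : ℤ} (hp : IsCoprime p ((N * 2 ^ M : ℕ) : ℤ))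
    (hq : IsCoprime q ((N * 2 ^ M : ℕ) : ℤ)) {X Y : M2} (hX : AT N M p q X) (hY : AT N M p q Y)
    {γ γ' : S2} (h : InG N M γ)
    (e : red (N * 2 ^ M) (X * (γ : M2)) = red (N * 2 ^ M) ((γ' : M2) * Y)) : InG N M γ' := by
  have hPL : ((2 ^ M : ℕ) : ℤ) ∣ ((N * 2 ^ M : ℕ) : ℤ) := by
    rw [Nat.cast_mul]; exact dvd_mul_left _ _
  have hqP : IsCoprime q ((2 ^ M : ℕ) : ℤ) := IsCoprime.of_isCoprime_of_dvd_right hq hPL
  have e10 := red_dvd e 1 0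
  have e11 := red_dvd e 1 1
  have e01 := red_dvd e 0 1
  simp only [Matrix.mul_apply, Fin.sum_univ_two] at e10 e11 e01
  obtain ⟨h1, h2, h3⟩ := h
  have k1 : ((N * 2 ^ M : ℕ) : ℤ) ∣ p * γ' 1 0 := by
    have : p * γ' 1 0 = X 1 0 * γ 0 0 + X 1 1 * γ 1 0 - γ' 1 0 * (Y 0 0 - p) - γ' 1 1 * Y 1 0
        - (X 1 0 * γ 0 0 + X 1 1 * γ 1 0 - (γ' 1 0 * Y 0 0 + γ' 1 1 * Y 1 0)) := by ring
    rw [this]
    exact dvd_sub (dvd_sub (dvd_sub (dvd_add (hX.c.mul_right _) (h1.mul_left _))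
      (hY.a.mul_left _)) (hY.c.mul_left _)) e10
  have l1 : ((N * 2 ^ M : ℕ) : ℤ) ∣ γ' 1 0 := hp.symm.dvd_of_dvd_mul_left k1
  have k2 : ((N * 2 ^ M : ℕ) : ℤ) ∣ q * (γ' 1 1 - γ 1 1) := by
    have : q * (γ' 1 1 - γ 1 1) = X 1 0 * γ 0 1 + (X 1 1 - q) * γ 1 1 - γ' 1 0 * Y 0 1 -
        γ' 1 1 * (Y 1 1 - q)
        - (X 1 0 * γ 0 1 + X 1 1 * γ 1 1 - (γ' 1 0 * Y 0 1 + γ' 1 1 * Y 1 1)) := by ring
    rw [this]
    exact dvd_sub (dvd_sub (dvd_sub (dvd_add (hX.c.mul_right _) (hX.d.mul_right _))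
      (l1.mul_right _)) (hY.d.mul_left _)) e11
  have l2 : ((N * 2 ^ M : ℕ) : ℤ) ∣ γ' 1 1 - γ 1 1 := hq.symm.dvd_of_dvd_mul_left k2
  have k3 : ((2 ^ M : ℕ) : ℤ) ∣ q * γ' 0 1 := by
    have : q * γ' 0 1 = X 0 0 * γ 0 1 + X 0 1 * γ 1 1 - γ' 0 0 * Y 0 1 - γ' 0 1 * (Y 1 1 - q)
        - (X 0 0 * γ 0 1 + X 0 1 * γ 1 1 - (γ' 0 0 * Y 0 1 + γ' 0 1 * Y 1 1)) := by ring
    rw [this]
    exact dvd_sub (dvd_sub (dvd_sub (dvd_add (h2.mul_left _) (hX.b.mul_right _))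
      (hY.b.mul_left _)) ((hPL.trans hY.d).mul_left _)) (hPL.trans e01)
  refine ⟨l1, hqP.symm.dvd_of_dvd_mul_left k3, ?_⟩
  rcases h3 with h3 | h3
  · left
    have := dvd_add l2 h3
    rwa [show γ' 1 1 - γ 1 1 + (γ 1 1 - 1) = γ' 1 1 - 1 by ring] at this
  · right
    have := dvd_add l2 h3
    rwa [show γ' 1 1 - γ 1 1 + (γ 1 1 + 1) = γ' 1 1 + 1 by ring] at this

/-- systems of representatives of the class of `diag(1, ℓ)` -/
structure Sys (N M ℓ : ℕ) {ι : Type*} (α : ι → M2) : Prop where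
  det : ∀ i, (α i).det = ℓ
  at_ : ∀ i, AT N M 1 ℓ (α i)
  fac : ∀ ω : M2, (ℓ : ℤ) ∣ ω.det → ∃ i ω', ω = ω' * α i
  inj : ∀ i j, ∀ ω ω' : M2, ω * α i = ω' * α j → IsCoprime ω.det ℓ → i = j

section

variable {N M ℓ : ℕ} {ι κ : Type*} {α : ι → M2} {β : κ → M2}

theorem Sys.aux (hα : Sys N M ℓ α) (h0 : ℓ ≠ 0) (hc : IsCoprime (ℓ : ℤ) ((N * 2 ^ M : ℕ) : ℤ))
    {X : M2} (hX : AT N M 1 ℓ X) (hXd : X.det = ℓ) {γ : S2} (h : InG N M γ) :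
    ∃ i, ∃ γ' : GN N M, X * (γ : M2) = rho (GN N M) γ' * α i := by
  obtain ⟨j, ω', hω⟩ := hα.fac (X * (γ : M2)) (by rw [det_mul, hXd]; simp)
  have h0' : (ℓ : ℤ) ≠ 0 := by exact_mod_cast h0
  have hd : ω'.det = 1 := by
    have := congrArg Matrix.det hω
    rw [det_mul, det_mul, hXd, hα.det, Matrix.SpecialLinearGroup.det_coe, mul_one] at this
    exact (mul_right_cancel₀ h0' (by rw [one_mul]; exact this)).symm
  refine ⟨j, ⟨⟨ω', hd⟩, ?_⟩, hω⟩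
  exact mem_of_cg isCoprime_one_left hc hX (hα.at_ j) h (congrArg _ hω)

theorem Sys.rep (hα : Sys N M ℓ α) (h0 : ℓ ≠ 0)
    (hc : IsCoprime (ℓ : ℤ) ((N * 2 ^ M : ℕ) : ℤ)) : Rep (rho (GN N M)) α where
  ex i γ := hα.aux h0 hc (hα.at_ i) (hα.det i) γ.2
  inj i j γ γ' e := by
    have h0' : (ℓ : ℤ) ≠ 0 := by exact_mod_cast h0
    have hij : i = j := hα.inj i j _ _ e (by
      rw [rho_apply, Matrix.SpecialLinearGroup.det_coe]; exact isCoprime_one_left)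
    subst hij
    refine ⟨rfl, ?_⟩
    have h1 : ((γ : S2) : M2) = ((γ' : S2) : M2) :=
      cancel_right (by rw [hα.det]; exact h0') e
    exact Subtype.ext (Subtype.ext h1)

theorem Sys.hk_eq [Fintype ι] [Fintype κ] (hα : Sys N M ℓ α) (hβ : Sys N M ℓ β) (h0 : ℓ ≠ 0)
    (hc : IsCoprime (ℓ : ℤ) ((N * 2 ^ M : ℕ) : ℤ)) {C : Type*} [CommGroup C]
    (r : Rep (rho (GN N M)) α) (r' : Rep (rho (GN N M)) β) (φ : GN N M →* C) :
    r'.hk φ = r.hk φ := by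
  refine r.hk_eq_of_ex r' (fun k => ?_) (fun i => ?_) φ
  · obtain ⟨i, δ, h⟩ := hα.aux h0 hc (hβ.at_ k) (hβ.det k) (GN N M).one_mem
    refine ⟨i, δ, ?_⟩
    rwa [Matrix.SpecialLinearGroup.coe_one, mul_one] at h
  · obtain ⟨k, δ, h⟩ := hβ.aux h0 hc (hα.at_ i) (hα.det i) (GN N M).one_mem
    refine ⟨k, δ, ?_⟩
    rwa [Matrix.SpecialLinearGroup.coe_one, mul_one] at h

end

theorem coprime_of_good {N ℓ : ℕ} (h : Good N ℓ) (M : ℕ) :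
    IsCoprime (ℓ : ℤ) ((N * 2 ^ M : ℕ) : ℤ) := by
  rw [Nat.isCoprime_iff_coprime, h.1.coprime_iff_not_dvd]
  intro hd
  apply h.2
  rcases h.1.dvd_mul.1 hd with h1 | h1
  · exact h1.mul_left _
  · exact (h.1.dvd_of_dvd_pow h1).mul_right _

theorem coprime_of {N : ℕ} {a : ℤ} (h : IsCoprime a (2 * N)) (M : ℕ) :
    IsCoprime a ((N * 2 ^ M : ℕ) : ℤ) := by
  push_cast
  exact IsCoprime.mul_right (IsCoprime.of_mul_right_right h)
    (IsCoprime.pow_right (IsCoprime.of_mul_right_left h))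

/-- diagonal matrices modulo `N 2^M` -/
def Del (N M : ℕ) (a : ℤ) (δ : SL(2, ℤ)) : Prop :=
  IsDel N M a δ ∧ ((N * 2 ^ M : ℕ) : ℤ) ∣ δ 0 1

theorem exists_del {N M : ℕ} {a : ℤ} (h : IsCoprime a ((N * 2 ^ M : ℕ) : ℤ)) :
    ∃ δ, Del N M a δ := by
  obtain ⟨x, y, hxy⟩ : IsCoprime a (((N * 2 ^ M : ℕ) : ℤ) * ((N * 2 ^ M : ℕ) : ℤ)) :=
    IsCoprime.mul_right h h
  generalize hL : ((N * 2 ^ M : ℕ) : ℤ) = L at *
  refine ⟨⟨!![x, -(y * L); L, a], ?_⟩, ⟨?_, ?_, ?_⟩, ?_⟩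
  · rw [det_fin_two_of]; linear_combination hxy
  · rw [hL]; exact dvd_rfl
  · show ((2 ^ M : ℕ) : ℤ) ∣ -(y * L)
    rw [← hL, Nat.cast_mul N]
    exact ((dvd_mul_left _ _).mul_left _).neg_right
  · rw [hL]; show L ∣ a - a; simp
  · rw [hL]; exact (dvd_mul_left _ _).neg_right

theorem isDel_at {N M : ℕ} {a : ℤ} {δ : SL(2, ℤ)} (h : IsDel N M a δ) :
    AT N M (δ 0 0) a (δ : M2) := ⟨h.1, h.2.2, by simp, h.2.1⟩

/-- the product of the diagonal entries is one modulo `N 2^M` -/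
theorem dvd_diag {N M : ℕ} {δ : SL(2, ℤ)} (h : ((N * 2 ^ M : ℕ) : ℤ) ∣ δ 1 0) :
    ((N * 2 ^ M : ℕ) : ℤ) ∣ δ 0 0 * δ 1 1 - 1 := by
  have := det_ap δ
  rw [show δ 0 0 * δ 1 1 - 1 = δ 0 1 * δ 1 0 by linear_combination this]
  exact h.mul_left _

theorem isDel_inv {N M : ℕ} {a : ℤ} {δ : SL(2, ℤ)} (h : IsDel N M a δ) :
    ((N * 2 ^ M : ℕ) : ℤ) ∣ a * δ 0 0 - 1 := by
  have h1 := dvd_diag h.1
  have h2 := h.2.2.mul_left (δ 0 0)
  have := dvd_sub h1 h2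
  rwa [show δ 0 0 * δ 1 1 - 1 - δ 0 0 * (δ 1 1 - a) = a * δ 0 0 - 1 by ring] at this

theorem cop_of_dvd {L x y : ℤ} (h : L ∣ x * y - 1) : IsCoprime x L := by
  obtain ⟨k, hk⟩ := h
  exact ⟨y, -k, by linear_combination hk⟩

theorem cop_of_dvd' {L x y : ℤ} (h : L ∣ x * y - 1) : IsCoprime y L := by
  obtain ⟨k, hk⟩ := h
  exact ⟨x, -k, by linear_combination hk⟩

theorem alp_eq (M ℓ : ℕ) (δ : SL(2, ℤ)) : alp M ℓ δ = al (2 ^ M) ℓ δ := by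
  funext i
  cases i <;> rfl

theorem at_al {N M ℓ : ℕ} {δ : SL(2, ℤ)} (h : IsDel N M ℓ δ) {P : ℕ} (hP : 2 ^ M ∣ P)
    (i : Option (Fin ℓ)) : AT N M 1 ℓ (al P ℓ δ i) := by
  cases i with
  | none =>
    have e : al P ℓ δ none = !![δ 0 0 * ℓ, δ 0 1; δ 1 0 * ℓ, δ 1 1] := by
      rw [al, eta_fin_two (δ : M2)]
      ext i j
      fin_cases i <;> fin_cases j <;> simp [Matrix.mul_apply, Fin.sum_univ_two]
    rw [e]
    refine ⟨h.1.mul_right _, h.2.2, ?_, h.2.1⟩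
    show _ ∣ δ 0 0 * ℓ - 1
    have := isDel_inv h
    rwa [mul_comm (ℓ : ℤ)] at this
  | some j =>
    refine ⟨by simp [al], by simp [al], by simp [al], ?_⟩
    show ((2 ^ M : ℕ) : ℤ) ∣ (P : ℤ) * ((j : ℕ) : ℤ)
    exact (Int.natCast_dvd_natCast.2 hP).mul_right _

theorem cast_of_dvd {P : ℕ} {x y : ℤ} (h : (P : ℤ) ∣ x - y) : (x : ZMod P) = y := by
  have := (ZMod.intCast_zmod_eq_zero_iff_dvd _ P).2 h
  rwa [Int.cast_sub, sub_eq_zero] at this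

theorem sys_al {N M ℓ : ℕ} (hℓ : Good N ℓ) {δ : SL(2, ℤ)} (h : IsDel N M ℓ δ) {P : ℕ}
    (hP : 2 ^ M ∣ P) (hP' : P ∣ N * 2 ^ M) (h01 : (P : ℤ) ∣ δ 0 1) :
    Fam P !![1, 0; 0, (ℓ : ℤ)] (al P ℓ δ) ∧ Sys N M ℓ (al P ℓ δ) := by
  have hPP : (P : ℤ) ∣ ((N * 2 ^ M : ℕ) : ℤ) := Int.natCast_dvd_natCast.2 hP'
  have hnd : ¬ ℓ ∣ P := by
    intro hd
    have := coprime_of_good hℓ M
    rw [Nat.isCoprime_iff_coprime, hℓ.1.coprime_iff_not_dvd] at this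
    exact this (hd.trans hP')
  have hf : Fam P !![1, 0; 0, (ℓ : ℤ)] (al P ℓ δ) := by
    refine fam_al P ℓ hℓ.1 hnd δ ?_ ?_ ?_ ?_
    · have := cast_of_dvd (hPP.trans (isDel_inv h))
      push_cast at this
      push_cast
      exact this
    · have := cast_of_dvd (P := P) (x := δ 1 0) (y := 0) (by rw [sub_zero]; exact hPP.trans h.1)
      rw [this, Int.cast_zero]
    · have := cast_of_dvd (P := P) (x := δ 0 1) (y := 0) (by rw [sub_zero]; exact h01)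
      rw [this, Int.cast_zero]
    · have := cast_of_dvd (hPP.trans h.2.2)
      push_cast at this
      exact this
  have hd : (!![1, 0; 0, (ℓ : ℤ)] : M2).det = ℓ := by rw [det_fin_two_of]; ring
  refine ⟨hf, fun i => ?_, at_al h hP, fun ω hω => hf.fac ω (by rw [hd]; exact hω),
    fun i j ω ω' e hc => hf.inj i j ω ω' e (by rw [hd]; exact hc)⟩
  rw [hf.det i, hd]

/-! The group `V(N, M, n)` as a group of homomorphisms. -/

section V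

variable {N M n : ℕ}

theorem V.map_one (φ : V N M n) : (φ : SL(2, ℤ) → ZMod (2 ^ n)) 1 = 0 := by
  have h := φ.2.2.1 1 1 (GN N M).one_mem (GN N M).one_mem
  rw [mul_one] at h
  simpa using h

/-- the homomorphism of an element of `V(N, M, n)` -/
def toH (φ : V N M n) : GN N M →* Multiplicative (ZMod (2 ^ n)) where
  toFun γ := Multiplicative.ofAdd ((φ : SL(2, ℤ) → ZMod (2 ^ n)) γ)
  map_one' := by rw [Subgroup.coe_one, V.map_one]; rfl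
  map_mul' γ δ := by
    rw [Subgroup.coe_mul, φ.2.2.1 γ δ γ.2 δ.2]; rfl

theorem toH_apply (φ : V N M n) (γ : GN N M) :
    toH φ γ = Multiplicative.ofAdd ((φ : SL(2, ℤ) → ZMod (2 ^ n)) γ) := rfl

theorem toH_add (φ ψ : V N M n) : toH (φ + ψ) = toH φ * toH ψ := by
  ext γ
  rfl

theorem toH_inj {φ ψ : V N M n} (h : toH φ = toH ψ) : φ = ψ := by
  apply Subtype.ext
  funext γ
  by_cases hγ : InG N M γ
  · exact DFunLike.congr_fun h ⟨γ, hγ⟩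
  · rw [φ.2.1 γ hγ, ψ.2.1 γ hγ]

open Classical in
/-- the element of `V(N, M, n)` of a homomorphism -/
def ofH (χ : GN N M →* Multiplicative (ZMod (2 ^ n))) (h : χ ⟨-1, neg_one_mem N M⟩ = 1) :
    V N M n :=
  ⟨fun γ => if hγ : InG N M γ then Multiplicative.toAdd (χ ⟨γ, hγ⟩) else 0, by
    refine ⟨fun γ hγ => dif_neg hγ, fun γ δ hγ hδ => ?_, ?_⟩
    · have hm : InG N M (γ * δ) := (GN N M).mul_mem hγ hδ
      simp only [dif_pos hγ, dif_pos hδ, dif_pos hm]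
      have : (⟨γ * δ, hm⟩ : GN N M) = ⟨γ, hγ⟩ * ⟨δ, hδ⟩ := rfl
      rw [this, map_mul]; rfl
    · have h1 : InG N M (-1) := neg_one_mem N M
      simp only [dif_pos h1]
      rw [h]; rfl⟩

open Classical in
theorem toH_ofH (χ : GN N M →* Multiplicative (ZMod (2 ^ n)))
    (h : χ ⟨-1, neg_one_mem N M⟩ = 1) : toH (ofH χ h) = χ := by
  ext γ
  have h1 : InG N M (γ : SL(2, ℤ)) := γ.2
  show (if hγ : InG N M (γ : SL(2, ℤ)) then Multiplicative.toAdd (χ ⟨γ, hγ⟩) else 0) = _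
  rw [dif_pos h1]

variable {ι : Type*} [Fintype ι] {α : ι → M2} (r : Rep (rho (GN N M)) α)

omit [Fintype ι] in
theorem el_neg_one (i : ι) : r.el ⟨-1, neg_one_mem N M⟩ i = ⟨-1, neg_one_mem N M⟩ := by
  apply (r.uniq (j := i) _).2
  rw [rho_apply]
  show α i * (((-1 : SL(2, ℤ)) : S2) : M2) = (((-1 : SL(2, ℤ)) : S2) : M2) * α i
  rw [Matrix.SpecialLinearGroup.coe_neg, Matrix.SpecialLinearGroup.coe_one, mul_neg, neg_mul, mul_one, one_mul]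

theorem hk_neg_one (φ : V N M n) : r.hk (toH φ) ⟨-1, neg_one_mem N M⟩ = 1 := by
  rw [Rep.hk_apply]
  apply Finset.prod_eq_one
  intro i _
  rw [el_neg_one, toH_apply]
  show Multiplicative.ofAdd ((φ : SL(2, ℤ) → ZMod (2 ^ n)) (-1)) = 1
  rw [φ.2.2.2]; rfl

/-- the operator of a system of representatives on `V(N, M, n)` -/
def opV : AddMonoid.End (V N M n) where
  toFun φ := ofH (r.hk (toH φ)) (hk_neg_one r φ)
  map_zero' := by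
    apply toH_inj
    rw [toH_ofH]
    have : toH (0 : V N M n) = 1 := by ext γ; rfl
    rw [this, Rep.hk_one]
  map_add' φ ψ := by
    apply toH_inj
    rw [toH_ofH, toH_add, toH_add, toH_ofH, toH_ofH, Rep.hk_mul]

theorem toH_opV (φ : V N M n) : toH (opV r φ) = r.hk (toH φ) :=
  toH_ofH _ (hk_neg_one r φ)

theorem opV_apply (φ : V N M n) {γ : SL(2, ℤ)} (hγ : InG N M γ) :
    ((opV r φ : V N M n) : SL(2, ℤ) → ZMod (2 ^ n)) γ =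
      ∑ i, (φ : SL(2, ℤ) → ZMod (2 ^ n)) (r.el ⟨γ, hγ⟩ i) := by
  have h1 : toH (opV r φ) ⟨γ, hγ⟩ = ∏ i, toH φ (r.el ⟨γ, hγ⟩ i) := by
    rw [toH_opV, Rep.hk_apply]
  have h2 := congrArg Multiplicative.toAdd h1
  rw [toAdd_prod] at h2
  exact h2

end V

/-! The operators `D`. -/

section D

variable {N M n : ℕ}

/-- matrices normalising `G(N, M)` -/
def Bo (N M : ℕ) (δ : SL(2, ℤ)) : Prop :=
  ((N * 2 ^ M : ℕ) : ℤ) ∣ δ 1 0 ∧ ((2 ^ M : ℕ) : ℤ) ∣ δ 0 1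

theorem bo_inv {δ : SL(2, ℤ)} (h : Bo N M δ) : Bo N M δ⁻¹ := by
  obtain ⟨i1, i2, i3, i4⟩ := inv_ap δ
  refine ⟨?_, ?_⟩
  · rw [i3]; exact h.1.neg_right
  · rw [i2]; exact h.2.neg_right

theorem bo_at {δ : SL(2, ℤ)} (h : Bo N M δ) : AT N M (δ 0 0) (δ 1 1) (δ : M2) :=
  ⟨h.1, by simp, by simp, h.2⟩

theorem bo_conj {δ : SL(2, ℤ)} (h : Bo N M δ) {γ : SL(2, ℤ)} (hγ : InG N M γ) :
    InG N M (δ * γ * δ⁻¹) := by
  have h1 := dvd_diag h.1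
  refine mem_of_cg (cop_of_dvd h1) (cop_of_dvd' h1) (bo_at h) (bo_at h) hγ (congrArg _ ?_)
  rw [← Matrix.SpecialLinearGroup.coe_mul, ← Matrix.SpecialLinearGroup.coe_mul]
  exact congrArg _ (inv_mul_cancel_right _ _).symm

theorem bo_conj_iff {δ : SL(2, ℤ)} (h : Bo N M δ) {γ : SL(2, ℤ)} :
    InG N M (δ * γ * δ⁻¹) ↔ InG N M γ := by
  refine ⟨fun hγ => ?_, fun hγ => bo_conj h hγ⟩
  have := bo_conj (bo_inv h) hγ
  rwa [show δ⁻¹ * (δ * γ * δ⁻¹) * δ⁻¹⁻¹ = γ by group] at this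

/-- conjugation -/
def conjV (δ : SL(2, ℤ)) (h : Bo N M δ) : AddMonoid.End (V N M n) where
  toFun φ := ⟨fun γ => (φ : SL(2, ℤ) → ZMod (2 ^ n)) (δ * γ * δ⁻¹), by
    refine ⟨fun γ hγ => φ.2.1 _ (fun hh => hγ ((bo_conj_iff h).1 hh)), fun γ γ' hγ hγ' => ?_, ?_⟩
    · show (φ : SL(2, ℤ) → ZMod (2 ^ n)) (δ * (γ * γ') * δ⁻¹) = _
      rw [show δ * (γ * γ') * δ⁻¹ = (δ * γ * δ⁻¹) * (δ * γ' * δ⁻¹) by group,
        φ.2.2.1 _ _ (bo_conj h hγ) (bo_conj h hγ')]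
    · show (φ : SL(2, ℤ) → ZMod (2 ^ n)) (δ * (-1) * δ⁻¹) = _
      rw [show δ * (-1) * δ⁻¹ = -1 by rw [mul_neg, mul_one, neg_mul, mul_inv_cancel], φ.2.2.2]⟩
  map_zero' := by apply Subtype.ext; rfl
  map_add' φ ψ := by apply Subtype.ext; rfl

theorem conjV_apply (δ : SL(2, ℤ)) (h : Bo N M δ) (φ : V N M n) (γ : SL(2, ℤ)) :
    ((conjV δ h φ : V N M n) : SL(2, ℤ) → ZMod (2 ^ n)) γ =
      (φ : SL(2, ℤ) → ZMod (2 ^ n)) (δ * γ * δ⁻¹) := rfl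

theorem V.map_inv (φ : V N M n) {ε : SL(2, ℤ)} (hε : InG N M ε) :
    (φ : SL(2, ℤ) → ZMod (2 ^ n)) ε⁻¹ = -(φ : SL(2, ℤ) → ZMod (2 ^ n)) ε := by
  have h := φ.2.2.1 ε ε⁻¹ hε ((GN N M).inv_mem hε)
  rw [mul_inv_cancel, V.map_one] at h
  exact (neg_eq_of_add_eq_zero_right h.symm).symm

theorem V.conj (φ : V N M n) {ε : SL(2, ℤ)} (hε : InG N M ε) (g : SL(2, ℤ)) :
    (φ : SL(2, ℤ) → ZMod (2 ^ n)) (ε * g * ε⁻¹) = (φ : SL(2, ℤ) → ZMod (2 ^ n)) g := by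
  have hi := (GN N M).inv_mem hε
  by_cases hg : InG N M g
  · rw [φ.2.2.1 (ε * g) ε⁻¹ ((GN N M).mul_mem hε hg) hi, φ.2.2.1 ε g hε hg, V.map_inv φ hε]
    ring
  · have : ¬ InG N M (ε * g * ε⁻¹) := by
      intro hh
      apply hg
      have := (GN N M).mul_mem ((GN N M).mul_mem hi hh) hε
      rwa [show ε⁻¹ * (ε * g * ε⁻¹) * ε = g by group] at this
    rw [φ.2.1 _ hg, φ.2.1 _ this]

theorem isDel_bo {a : ℤ} {δ : SL(2, ℤ)} (h : IsDel N M a δ) : Bo N M δ := ⟨h.1, h.2.1⟩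

theorem isDel_div {a : ℤ} {δ δ' : SL(2, ℤ)} (h : IsDel N M a δ) (h' : IsDel N M a δ') :
    InG N M (δ' * δ⁻¹) := by
  obtain ⟨i1, i2, i3, i4⟩ := inv_ap δ
  refine ⟨?_, ?_, Or.inl ?_⟩
  · rw [mul_ap, i1, i3]
    exact dvd_add (h'.1.mul_right _) (h.1.neg_right.mul_left _)
  · rw [mul_ap, i2, i4]
    exact dvd_add (h.2.1.neg_right.mul_left _) (h'.2.1.mul_right _)
  · rw [mul_ap, i2, i4]
    have h1 := isDel_inv h
    have h2 := h'.2.2.mul_right (δ 0 0)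
    have h3 := h'.1.mul_right (δ 0 1)
    have := dvd_add (dvd_sub h2 h3) h1
    rwa [show (δ' 1 1 - a) * δ 0 0 - δ' 1 0 * δ 0 1 + (a * δ 0 0 - 1) =
      δ' 1 0 * -δ 0 1 + δ' 1 1 * δ 0 0 - 1 by ring] at this

theorem conj_eq {a : ℤ} {δ δ' : SL(2, ℤ)} (h : IsDel N M a δ) (h' : IsDel N M a δ')
    (φ : V N M n) (γ : SL(2, ℤ)) :
    (φ : SL(2, ℤ) → ZMod (2 ^ n)) (δ' * γ * δ'⁻¹) =
      (φ : SL(2, ℤ) → ZMod (2 ^ n)) (δ * γ * δ⁻¹) := by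
  rw [← V.conj φ (isDel_div h h') (δ * γ * δ⁻¹)]
  group

theorem isDel_mul {a b : ℤ} {δ δ' : SL(2, ℤ)} (h : IsDel N M a δ) (h' : IsDel N M b δ') :
    IsDel N M (a * b) (δ' * δ) := by
  refine ⟨?_, ?_, ?_⟩
  · rw [mul_ap]; exact dvd_add (h'.1.mul_right _) (h.1.mul_left _)
  · rw [mul_ap]; exact dvd_add (h.2.1.mul_left _) (h'.2.1.mul_right _)
  · rw [mul_ap]
    have h1 := h'.1.mul_right (δ 0 1)
    have h2 := h'.2.2.mul_right (δ 1 1)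
    have h3 := h.2.2.mul_left b
    have := dvd_add (dvd_add h1 h2) h3
    rwa [show δ' 1 0 * δ 0 1 + (δ' 1 1 - b) * δ 1 1 + b * (δ 1 1 - a) =
      δ' 1 0 * δ 0 1 + δ' 1 1 * δ 1 1 - a * b by ring] at this

theorem isDel_congr {a b : ℤ} {δ : SL(2, ℤ)} (h : IsDel N M a δ)
    (hab : ((N * 2 ^ M : ℕ) : ℤ) ∣ a - b) : IsDel N M b δ := by
  refine ⟨h.1, h.2.1, ?_⟩
  have := dvd_add h.2.2 hab
  rwa [show δ 1 1 - a + (a - b) = δ 1 1 - b by ring] at this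

theorem nrm_del {δ : SL(2, ℤ)} (h : Bo N M δ) :
    Nrm (N * 2 ^ M) (δ : M2) (GN N M) := by
  intro γ hγ γ' e
  have h1 := dvd_diag h.1
  exact mem_of_cg (cop_of_dvd h1) (cop_of_dvd' h1) (bo_at h) (bo_at h) hγ e

theorem unit_rep {δ : SL(2, ℤ)} (h : Bo N M δ) :
    Rep (rho (GN N M)) (fun _ : Unit => (δ : M2)) :=
  (Fam.unit (N * 2 ^ M) δ).rep (by rw [Matrix.SpecialLinearGroup.det_coe]; exact one_ne_zero)
    (by rw [Matrix.SpecialLinearGroup.det_coe]; exact isCoprime_one_left) (nrm_del h)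

theorem toH_conjV {δ : SL(2, ℤ)} (h : Bo N M δ) (φ : V N M n) :
    toH (conjV δ h φ) = (unit_rep h).hk (toH φ) := by
  ext γ
  rw [Rep.hk_apply, Finset.univ_unique, Finset.prod_singleton]
  have : (unit_rep h).el γ () = ⟨δ * γ * δ⁻¹, bo_conj h γ.2⟩ := by
    apply ((unit_rep h).uniq (j := ()) _).2
    show (δ : M2) * ((γ : S2) : M2) = ((δ * γ * δ⁻¹ : S2) : M2) * (δ : M2)
    rw [← Matrix.SpecialLinearGroup.coe_mul, ← Matrix.SpecialLinearGroup.coe_mul]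
    exact congrArg _ (inv_mul_cancel_right _ _).symm
  show _ = Multiplicative.toAdd (toH φ ((unit_rep h).el γ ()))
  rw [this]
  rfl

end D

theorem nrm_diag {N M ℓ : ℕ} (hc : IsCoprime (ℓ : ℤ) ((N * 2 ^ M : ℕ) : ℤ)) :
    Nrm (N * 2 ^ M) !![1, 0; 0, (ℓ : ℤ)] (GN N M) := by
  intro γ hγ γ' e
  have : AT N M 1 ℓ !![1, 0; 0, (ℓ : ℤ)] := ⟨by simp, by simp, by simp, by simp⟩
  exact mem_of_cg isCoprime_one_left hc this this hγ e

section main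

variable (N M n : ℕ)

/-- the matrix `δ_ℓ`, diagonal modulo `N 2^M` -/
def dl {ℓ : ℕ} (h : Good N ℓ) : SL(2, ℤ) := (exists_del (coprime_of_good h M)).choose

theorem dl_spec {ℓ : ℕ} (h : Good N ℓ) : Del N M ℓ (dl N M h) :=
  (exists_del (coprime_of_good h M)).choose_spec

theorem fs {ℓ : ℕ} (h : Good N ℓ) :
    Fam (N * 2 ^ M) !![1, 0; 0, (ℓ : ℤ)] (al (N * 2 ^ M) ℓ (dl N M h)) ∧
      Sys N M ℓ (al (N * 2 ^ M) ℓ (dl N M h)) :=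
  sys_al h (dl_spec N M h).1 (dvd_mul_left _ _) dvd_rfl (dl_spec N M h).2

theorem rp {ℓ : ℕ} (h : Good N ℓ) : Rep (rho (GN N M)) (al (N * 2 ^ M) ℓ (dl N M h)) :=
  (fs N M h).2.rep h.1.ne_zero (coprime_of_good h M)

open Classical in
/-- the operators `T_ℓ` -/
def TT (ℓ : ℕ) : AddMonoid.End (V N M n) := if h : Good N ℓ then opV (rp N M h) else 0

open Classical in
/-- the operators `D_a` -/
def DD (a : ℤ) : AddMonoid.End (V N M n) :=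
  if h : ∃ δ, Del N M a δ then conjV h.choose (isDel_bo h.choose_spec.1) else 0

theorem DD_apply {a : ℤ} {δ : SL(2, ℤ)} (h : ∃ δ, Del N M a δ) (hδ : IsDel N M a δ)
    (φ : V N M n) (γ : SL(2, ℤ)) :
    ((DD N M n a φ : V N M n) : SL(2, ℤ) → ZMod (2 ^ n)) γ =
      (φ : SL(2, ℤ) → ZMod (2 ^ n)) (δ * γ * δ⁻¹) := by
  rw [DD, dif_pos h, conjV_apply]
  exact conj_eq hδ h.choose_spec.1 φ γ

theorem hex_main (N M n : ℕ) :
    ∃ (T : ℕ → AddMonoid.End (V N M n)) (D : ℤ → AddMonoid.End (V N M n)),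
    (∀ ℓ, Good N ℓ → ∀ φ : V N M n, IsT N M n ℓ φ (T ℓ φ)) ∧
    (∀ a : ℤ, IsCoprime a (2 * N) → ∀ φ : V N M n, IsD N M n a φ (D a φ)) ∧
    (∀ a b : ℤ, IsCoprime a (2 * N) → IsCoprime b (2 * N) → D (a * b) = D a * D b) ∧
    (∀ a b : ℤ, IsCoprime a (2 * N) → ((N * 2 ^ M : ℕ) : ℤ) ∣ a - b → D a = D b) ∧
    (∀ a : ℤ, IsCoprime a (2 * N) → ∀ ℓ, Good N ℓ → D a * T ℓ = T ℓ * D a) ∧
    (∀ ℓ ℓ', Good N ℓ → Good N ℓ' → T ℓ * T ℓ' = T ℓ' * T ℓ) := by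
  refine ⟨TT N M n, DD N M n, ?_, ?_, ?_, ?_, ?_, ?_⟩
  · intro ℓ hℓ φ δ hδ γ hγ
    have hs : Sys N M ℓ (alp M ℓ δ) := by
      rw [alp_eq]
      exact (sys_al hℓ hδ dvd_rfl (dvd_mul_left _ _) hδ.2.1).2
    have hc := coprime_of_good hℓ M
    have r := hs.rep hℓ.1.ne_zero hc
    refine ⟨r.perm ⟨γ, hγ⟩, fun i => (r.el ⟨γ, hγ⟩ i : SL(2, ℤ)), fun i => (r.el ⟨γ, hγ⟩ i).2,
      fun i => r.eq ⟨γ, hγ⟩ i, ?_⟩
    have h1 : TT N M n ℓ φ = opV r φ := by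
      rw [TT, dif_pos hℓ]
      apply toH_inj
      rw [toH_opV, toH_opV]
      exact hs.hk_eq (fs N M hℓ).2 hℓ.1.ne_zero hc r (rp N M hℓ) (toH φ)
    rw [h1]
    exact opV_apply r φ hγ
  · intro a ha φ δ hδ γ
    exact DD_apply N M n (exists_del (coprime_of ha M)) hδ φ γ
  · intro a b ha hb
    obtain ⟨δ, hδ⟩ := exists_del (coprime_of ha M)
    obtain ⟨δ', hδ'⟩ := exists_del (coprime_of hb M)
    have hab : ∃ δ, Del N M (a * b) δ := exists_del (coprime_of (ha.mul_left hb) M)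
    ext φ γ
    rw [DD_apply N M n hab (isDel_mul hδ.1 hδ'.1)]
    show _ = ((DD N M n a (DD N M n b φ) : V N M n) : SL(2, ℤ) → ZMod (2 ^ n)) γ
    rw [DD_apply N M n ⟨δ, hδ⟩ hδ.1, DD_apply N M n ⟨δ', hδ'⟩ hδ'.1]
    group
  · intro a b ha hab
    obtain ⟨δ, hδ⟩ := exists_del (coprime_of ha M)
    have hb : Del N M b δ := ⟨isDel_congr hδ.1 hab, hδ.2⟩
    ext φ γ
    rw [DD_apply N M n ⟨δ, hδ⟩ hδ.1, DD_apply N M n ⟨δ, hb⟩ hb.1]
  · intro a ha ℓ hℓ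
    have hex := exists_del (coprime_of ha M)
    have hB := isDel_bo hex.choose_spec.1
    have h01 := hex.choose_spec.2
    have hD : DD N M n a = conjV hex.choose hB := by rw [DD, dif_pos hex]
    rw [hD, TT, dif_pos hℓ]
    generalize hex.choose = δ at *
    apply AddMonoidHom.ext
    intro φ
    apply toH_inj
    show toH (conjV δ hB (opV (rp N M hℓ) φ)) = toH (opV (rp N M hℓ) (conjV δ hB φ))
    rw [toH_conjV, toH_opV, toH_opV, toH_conjV]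
    have hd : (!![1, 0; 0, (ℓ : ℤ)] : M2).det = ℓ := by rw [det_fin_two_of]; ring
    have h0 : (ℓ : ℤ) ≠ 0 := by exact_mod_cast hℓ.1.ne_zero
    refine hk_comm (Fam.unit (N * 2 ^ M) δ) (fs N M hℓ).1 ?_ (by rw [hd]; exact h0) ?_
      (by rw [hd]; exact coprime_of_good hℓ M) ?_ (nrm_del hB)
      (nrm_diag (coprime_of_good hℓ M)) ?_ _ _ _
    · rw [Matrix.SpecialLinearGroup.det_coe]; exact one_ne_zero
    · rw [Matrix.SpecialLinearGroup.det_coe]; exact isCoprime_one_left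
    · rw [Matrix.SpecialLinearGroup.det_coe]; exact isCoprime_one_left
    · apply red_of_dvd
      intro i j
      have e1 : (δ : M2) * !![1, 0; 0, (ℓ : ℤ)] = !![δ 0 0, δ 0 1 * ℓ; δ 1 0, δ 1 1 * ℓ] := by
        ext i j
        fin_cases i <;> fin_cases j <;> simp [Matrix.mul_apply, Fin.sum_univ_two]
      have e2 : !![1, 0; 0, (ℓ : ℤ)] * (δ : M2) = !![δ 0 0, δ 0 1; ℓ * δ 1 0, ℓ * δ 1 1] := by
        ext i j
        fin_cases i <;> fin_cases j <;> simp [Matrix.mul_apply, Fin.sum_univ_two]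
      rw [e1, e2]
      fin_cases i <;> fin_cases j
      · show _ ∣ δ 0 0 - δ 0 0
        simp
      · show _ ∣ δ 0 1 * ℓ - δ 0 1
        exact dvd_sub (h01.mul_right _) h01
      · show _ ∣ δ 1 0 - ℓ * δ 1 0
        exact dvd_sub hB.1 (hB.1.mul_left _)
      · show _ ∣ δ 1 1 * ℓ - ℓ * δ 1 1
        rw [mul_comm (δ 1 1) (ℓ : ℤ), sub_self]; exact dvd_zero _
  · intro ℓ ℓ' hℓ hℓ'
    by_cases hll : ℓ = ℓ'
    · rw [hll]
    rw [TT, dif_pos hℓ, TT, dif_pos hℓ']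
    apply AddMonoidHom.ext
    intro φ
    apply toH_inj
    show toH (opV (rp N M hℓ) (opV (rp N M hℓ') φ)) = toH (opV (rp N M hℓ') (opV (rp N M hℓ) φ))
    rw [toH_opV, toH_opV, toH_opV, toH_opV]
    have hd : ∀ ℓ : ℕ, (!![1, 0; 0, (ℓ : ℤ)] : M2).det = ℓ := by
      intro ℓ; rw [det_fin_two_of]; ring
    have h0 : (ℓ : ℤ) ≠ 0 := by exact_mod_cast hℓ.1.ne_zero
    have h0' : (ℓ' : ℤ) ≠ 0 := by exact_mod_cast hℓ'.1.ne_zero
    refine hk_comm (fs N M hℓ).1 (fs N M hℓ').1 (by rw [hd]; exact h0) (by rw [hd]; exact h0')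
      (by rw [hd]; exact coprime_of_good hℓ M) (by rw [hd]; exact coprime_of_good hℓ' M)
      (by rw [hd, hd, Nat.isCoprime_iff_coprime]; exact (Nat.coprime_primes hℓ.1 hℓ'.1).2 hll)
      (nrm_diag (coprime_of_good hℓ M)) (nrm_diag (coprime_of_good hℓ' M)) ?_ _ _ _
    congr 1
    ext i j
    fin_cases i <;> fin_cases j <;> simp [Matrix.mul_apply, Fin.sum_univ_two, mul_comm]

/-- **[HEX]** -/
theorem hex : HEXStmt := fun N M n _ _ => hex_main N M n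

end main

end Vale.Agent.P022.H648.L3
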